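import Vale.Agent.P011.H280.Rl.Gen

/-!
The polar decomposition in the group of all the maps that preserve the cubic norm.
-/

open NormedSpace Filter Topology

namespace Vale.Agent.P011.H280.Rl

open Vale.Agent.P011.MPQ Vale.Agent.P011.D4 Vale.Agent.P011.D4.Oct
open Vale.Agent.P011.E6
open Vale.Agent.P011.E6.Alb Vale.Agent.P011.H261.Rl Vale.Agent.P011.H44.Rl
open scoped ComplexConjugate

theorem cub_one' : cub (e1 + e2 + e3 : VC) = 1 := by
  simp [cub, e1, e2, e3, bil]

/-- A linear map that preserves the norm of the adjoints preserves the norm. -/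
theorem cub_of_adj {F : VC → VC} (ha : ∀ x y, F (x + y) = F x + F y)
    (hs : ∀ (s : ℂ) x, F (s • x) = s • F x) (h : ∀ y, cub (F (adj y)) = cub (adj y)) (x : VC) :
    cub (F x) = cub x := by
  have h1 : ∀ x, cub x ≠ 0 → cub (F x) = cub x := by
    intro x hx
    obtain ⟨t, ht⟩ := IsAlgClosed.exists_pow_nat_eq (cub x)⁻¹ (n := 2) (by norm_num)
    have e : x = adj (t • adj x) := by
      rw [adj_smul, adj_adj, ht, smul_smul, inv_mul_cancel₀ hx, one_smul]
    rw [e]
    exact h _
  have ho : cub (F (e1 + e2 + e3)) = 1 := by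
    rw [h1 _ (by rw [cub_one']; exact one_ne_zero), cub_one']
  obtain ⟨A, hA⟩ : ∃ A, A = tf x (adj (e1 + e2 + e3 : VC)) := ⟨_, rfl⟩
  obtain ⟨B, hB⟩ : ∃ B, B = tf (adj x) (e1 + e2 + e3 : VC) := ⟨_, rfl⟩
  obtain ⟨A', hA'⟩ : ∃ A, A = tf (F x) (adj (F (e1 + e2 + e3 : VC))) := ⟨_, rfl⟩
  obtain ⟨B', hB'⟩ : ∃ B, B = tf (adj (F x)) (F (e1 + e2 + e3 : VC)) := ⟨_, rfl⟩
  have q1 : ∀ s : ℂ, cub (x + s • (e1 + e2 + e3 : VC)) = s ^ 3 + A * s ^ 2 + B * s + cub x := by
    intro s
    rw [cub_line, cub_one', ← hA, ← hB, one_mul]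
  have q2 : ∀ s : ℂ, cub (F (x + s • (e1 + e2 + e3 : VC))) =
      s ^ 3 + A' * s ^ 2 + B' * s + cub (F x) := by
    intro s
    rw [ha, hs, cub_line, ho, ← hA', ← hB', one_mul]
  have key : ∀ s : ℂ, ((A' - A) * s ^ 2 + (B' - B) * s + (cub (F x) - cub x)) *
      (s ^ 3 + A * s ^ 2 + B * s + cub x) = 0 := by
    intro s
    by_cases hz : s ^ 3 + A * s ^ 2 + B * s + cub x = 0
    · rw [hz, mul_zero]
    · have h2 := h1 (x + s • (e1 + e2 + e3 : VC)) (by rw [q1]; exact hz)
      rw [q1, q2] at h2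
      rw [show (A' - A) * s ^ 2 + (B' - B) * s + (cub (F x) - cub x) = 0 by
        linear_combination h2, zero_mul]
  have hp : ((Polynomial.C (A' - A) * Polynomial.X ^ 2 + Polynomial.C (B' - B) * Polynomial.X +
      Polynomial.C (cub (F x) - cub x)) * (Polynomial.X ^ 3 + Polynomial.C A * Polynomial.X ^ 2 +
      Polynomial.C B * Polynomial.X + Polynomial.C (cub x)) : Polynomial ℂ) = 0 := by
    apply Polynomial.funext
    intro s
    simp only [Polynomial.eval_mul, Polynomial.eval_add, Polynomial.eval_pow, Polynomial.eval_X,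
      Polynomial.eval_C, Polynomial.eval_zero]
    exact key s
  have hq : (Polynomial.X ^ 3 + Polynomial.C A * Polynomial.X ^ 2 +
      Polynomial.C B * Polynomial.X + Polynomial.C (cub x) : Polynomial ℂ) ≠ 0 := by
    intro h0
    have := congrArg (fun p : Polynomial ℂ => p.coeff 3) h0
    simp [Polynomial.coeff_X, Polynomial.coeff_C] at this
  have h3 := congrArg (Polynomial.eval 0) ((mul_eq_zero.1 hp).resolve_right hq)
  simp only [Polynomial.eval_mul, Polynomial.eval_add, Polynomial.eval_pow, Polynomial.eval_X,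
    Polynomial.eval_C, Polynomial.eval_zero] at h3
  linear_combination h3

/-- The adjoint operator preserves the cubic norm. -/
theorem star_GN {f f' : RV} (h : ∀ x, cub (f x) = cub x) (h1 : f * f' = 1) (h2 : f' * f = 1)
    (x : VC) : cub (star f' x) = cub x := by
  have hin : ∀ u z : VC, inner ℂ (star f' u) z = inner ℂ u (f' z) := fun u z => by
    rw [ContinuousLinearMap.star_eq_adjoint]
    exact ContinuousLinearMap.adjoint_inner_left f' z u
  obtain ⟨F, hF⟩ : ∃ F : VC → VC, ∀ x, F x = cj (star f' (cj x)) := ⟨_, fun _ => rfl⟩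
  have ha : ∀ x y, F (x + y) = F x + F y := fun x y => by
    rw [hF, hF, hF, cj_add, map_add, cj_add]
  have hs : ∀ (s : ℂ) x, F (s • x) = s • F x := fun s x => by
    rw [hF, hF, cj_smul, map_smul, cj_smul, Complex.conj_conj]
  have ht : ∀ x z, tf (F x) z = tf x (f' z) := fun x z => by
    have := hin (cj x) z
    rw [inner_eq_tf, inner_eq_tf, cj_cj] at this
    rw [hF]
    exact this
  have hff : ∀ z, f (f' z) = z := fun z => by rw [← mul_app, h1, one_app]
  have hadj : ∀ y, F (adj y) = adj (f y) := fun y => by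
    apply eq_of_tf
    intro z
    rw [ht]
    have := tf_adj_map h y (f' z)
    rw [hff] at this
    rw [tf_comm, ← this, tf_comm]
  have hc := cub_of_adj ha hs (fun y => by rw [hadj, cub_adj, cub_adj, h])
  have h3 := hc (cj x)
  rw [hF, cub_cj, cub_cj, cj_cj] at h3
  exact (starRingEnd ℂ).injective h3

/-- The trilinear form. -/
theorem tri_cub' : H184.Pol.Tri (fun x y z : VC => tf (cross x y) z) where
  a1 x x' y z := by rw [cross_add_left, tf_add_left]
  a2 x y y' z := by rw [cross_add_right, tf_add_left]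
  a3 x y z z' := by rw [tf_add_right]
  s1 r x y z := by
    change tf (cross ((r : ℂ) • x) y) z = (r : ℂ) * _
    rw [cross_smul_left, tf_smul_left]
  s2 r x y z := by
    change tf (cross x ((r : ℂ) • y)) z = (r : ℂ) * _
    rw [cross_smul_right, tf_smul_left]
  s3 r x y z := by
    change tf (cross x y) ((r : ℂ) • z) = (r : ℂ) * _
    rw [tf_smul_right]

theorem cub_of_cross {f : RV} (h : ∀ x y z, tf (cross (f x) (f y)) (f z) = tf (cross x y) z)
    (x : VC) : cub (f x) = cub x := by
  have h1 := h x x x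
  rw [Alb.cross_self, Alb.cross_self, tf_smul_left, tf_smul_left, tf_adj_self, tf_adj_self] at h1
  have h2 : (6 : ℂ) * cub (f x) = 6 * cub x := by linear_combination h1
  exact mul_left_cancel₀ (by norm_num) h2

/-- **The polar decomposition.** -/
theorem polar_GN {f f' : RV} (h : ∀ x, cub (f x) = cub x) (h' : ∀ x, cub (f' x) = cub x)
    (h1 : f * f' = 1) (h2 : f' * f = 1) : ∃ k S : RV, IsU k ∧ (∀ x, tf (S x) (adj x) = 0) ∧
      f = k * exp S := by
  obtain ⟨k, S, hk1, hk2, hS, hf, hSS⟩ := H184.Pol.polar f ⟨⟨f, f', h1, h2⟩, rfl⟩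
  have hst : ∀ x, cub (star f x) = cub x := star_GN h' h2 h1
  have hN : ∀ x y z : VC, tf (cross ((exp ((2 : ℝ) • S) : RV) x) ((exp ((2 : ℝ) • S) : RV) y))
      ((exp ((2 : ℝ) • S) : RV) z) = tf (cross x y) z := by
    intro x y z
    rw [hSS]
    rw [mul_app, mul_app, mul_app, cross_map hst, cross_map h]
  obtain ⟨h3, h4⟩ := H184.Pol.tri_exp tri_cub' hS hS hS (two_ne_zero) hN
  have hk : k = f * exp (-S) := by
    rw [hf, mul_assoc, H184.Pol.exp_mul_exp_neg, mul_one]
  refine ⟨k, S, ⟨fun x => ?_, fun x y => ?_⟩, fun x => ?_, hf⟩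
  · refine cub_of_cross (fun x y z => ?_) x
    have h5 := h3 (-1) x y z
    rw [neg_one_smul] at h5
    rw [hk, mul_app, mul_app, mul_app, cross_map h, h5]
  · have h5 : inner ℂ (k x) (k y) = inner ℂ ((star k * k) x) y := by
      rw [mul_app, ContinuousLinearMap.star_eq_adjoint]
      exact (ContinuousLinearMap.adjoint_inner_left k y (k x)).symm
    rw [h5, hk1, one_app]
  · have h5 := h4 x x x
    change tf (cross (S x) x) x + tf (cross x (S x)) x + tf (cross x x) (S x) = 0 at h5
    rw [tf_cross_comm x (S x) x, tf_cross (S x) x x, Alb.cross_self, tf_smul_left,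
      tf_comm (adj x), tf_smul_right] at h5
    have h6 : (6 : ℂ) * tf (S x) (adj x) = 0 := by linear_combination h5
    exact (mul_eq_zero.1 h6).resolve_left (by norm_num)

end Vale.Agent.P011.H280.Rl
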