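import Vale.Agent.P011.H280.Rl.Gen
import Vale.Agent.P011.H44.Rl.Cx

/-!
The torus, and the maps of the compact group that have the three idempotents as eigenvectors.
-/

open NormedSpace Filter Topology

namespace Vale.Agent.P011.H280.Rl

open Vale.Agent.P011.MPQ Vale.Agent.P011.D4 Vale.Agent.P011.D4.Oct
open Vale.Agent.P011.E6
open Vale.Agent.P011.E6.Alb Vale.Agent.P011.H261.Rl Vale.Agent.P011.H44.Rl
open scoped ComplexConjugate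

/-- The torus. -/
noncomputable def tz (z₁ z₂ z₃ : ℂ) : RV := LinearMap.toContinuousLinearMap
  { toFun := fun x => ⟨z₁ ^ 2 * x.d1, z₂ ^ 2 * x.d2, z₃ ^ 2 * x.d3, (z₂ * z₃) • x.x1,
      (z₃ * z₁) • x.x2, (z₁ * z₂) • x.x3⟩
    map_add' := fun x y => by
      ext1 <;> simp only [d1_add, d2_add, d3_add, x1_add, x2_add, x3_add, mul_add, smul_add]
    map_smul' := fun t x => by
      ext1 <;> simp only [d1_smul, d2_smul, d3_smul, x1_smul, x2_smul, x3_smul, RingHom.id_apply,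
        mul_left_comm, smul_comm t] }

theorem tz_apply (z₁ z₂ z₃ : ℂ) (x : VC) : tz z₁ z₂ z₃ x =
    ⟨z₁ ^ 2 * x.d1, z₂ ^ 2 * x.d2, z₃ ^ 2 * x.d3, (z₂ * z₃) • x.x1,
      (z₃ * z₁) • x.x2, (z₁ * z₂) • x.x3⟩ := rfl

theorem tz_mul (z₁ z₂ z₃ w₁ w₂ w₃ : ℂ) :
    tz (z₁ * w₁) (z₂ * w₂) (z₃ * w₃) = tz z₁ z₂ z₃ * tz w₁ w₂ w₃ := by
  ext1 x
  rw [mul_app, tz_apply, tz_apply, tz_apply]
  ext1
  · change (z₁ * w₁) ^ 2 * x.d1 = z₁ ^ 2 * (w₁ ^ 2 * x.d1)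
    ring
  · change (z₂ * w₂) ^ 2 * x.d2 = z₂ ^ 2 * (w₂ ^ 2 * x.d2)
    ring
  · change (z₃ * w₃) ^ 2 * x.d3 = z₃ ^ 2 * (w₃ ^ 2 * x.d3)
    ring
  · change (z₂ * w₂ * (z₃ * w₃)) • x.x1 = (z₂ * z₃) • ((w₂ * w₃) • x.x1)
    rw [smul_smul]
    congr 1
    ring
  · change (z₃ * w₃ * (z₁ * w₁)) • x.x2 = (z₃ * z₁) • ((w₃ * w₁) • x.x2)
    rw [smul_smul]
    congr 1
    ring
  · change (z₁ * w₁ * (z₂ * w₂)) • x.x3 = (z₁ * z₂) • ((w₁ * w₂) • x.x3)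
    rw [smul_smul]
    congr 1
    ring

theorem tz_one : tz 1 1 1 = 1 := by
  ext1 x
  rw [one_app, tz_apply]
  ext1 <;> simp

theorem cub_tz (z₁ z₂ z₃ : ℂ) (x : VC) : cub (tz z₁ z₂ z₃ x) = (z₁ * z₂ * z₃) ^ 2 * cub x := by
  rw [tz_apply]
  simp only [cub, Oct.norm_smul, smul_mul_oct, mul_smul_oct, bil_smul_left]
  ring

theorem qh_smul_smul (s t : ℂ) (x y : QC) : qh (s • x) (t • y) = conj s * t * qh x y := by
  simp only [qh, QuaternionAlgebra.re_smul, QuaternionAlgebra.imI_smul,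
    QuaternionAlgebra.imJ_smul, QuaternionAlgebra.imK_smul, smul_eq_mul, map_mul]
  ring

theorem oh_smul_smul (s t : ℂ) (x y : OC) : oh (s • x) (t • y) = conj s * t * oh x y := by
  simp only [oh, Oct.fst_smul, Oct.snd_smul, qh_smul_smul]
  ring

theorem inner_tz {z₁ z₂ z₃ : ℂ} (h₁ : conj z₁ * z₁ = 1) (h₂ : conj z₂ * z₂ = 1)
    (h₃ : conj z₃ * z₃ = 1) (x y : VC) :
    inner ℂ (tz z₁ z₂ z₃ x) (tz z₁ z₂ z₃ y) = inner ℂ x y := by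
  rw [inner_eq, inner_eq, tz_apply, tz_apply]
  simp only [hs, oh_smul_smul, map_mul, map_pow]
  linear_combination ((conj z₁ * z₁ + 1) * (conj x.d1 * y.d1) +
      2 * (conj z₃ * z₃) * oh x.x2 y.x2 + 2 * (conj z₂ * z₂) * oh x.x3 y.x3) * h₁ +
    ((conj z₂ * z₂ + 1) * (conj x.d2 * y.d2) + 2 * (conj z₃ * z₃) * oh x.x1 y.x1 +
      2 * oh x.x3 y.x3) * h₂ +
    ((conj z₃ * z₃ + 1) * (conj x.d3 * y.d3) + 2 * oh x.x1 y.x1 + 2 * oh x.x2 y.x2) * h₃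

theorem IsU.tz {z₁ z₂ z₃ : ℂ} (h₁ : conj z₁ * z₁ = 1) (h₂ : conj z₂ * z₂ = 1)
    (h₃ : conj z₃ * z₃ = 1) (h : z₁ * z₂ * z₃ = 1) : IsU (H280.Rl.tz z₁ z₂ z₃) :=
  ⟨fun x => by rw [cub_tz, h, one_pow, one_mul], inner_tz h₁ h₂ h₃⟩

theorem IsU.mul {f g : RV} (hf : IsU f) (hg : IsU g) : IsU (f * g) :=
  ⟨fun x => by rw [mul_app, hf.1, hg.1], fun x y => by rw [mul_app, mul_app, hf.2, hg.2]⟩

/-- Elements of the compact group that commute with the involution. -/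
theorem IsU.mem {J f : RV} (hf : IsU f) (h : f * J = J * f) : f ∈ GJ J := by
  refine ⟨hf.1, fun x y => ?_⟩
  rw [← mul_app J f, ← h, mul_app, hf.2]

/-- A related triple, as an operator. -/
noncomputable def cr (s₁ s₂ s₃ : OR →ₗ[ℝ] OR) : RV := LinearMap.toContinuousLinearMap (cx s₁ s₂ s₃)

theorem cr_apply (s₁ s₂ s₃ : OR →ₗ[ℝ] OR) (x : VC) :
    cr s₁ s₂ s₃ x = ⟨x.d1, x.d2, x.d3, cxo s₁ x.x1, cxo s₂ x.x2, cxo s₃ x.x3⟩ := rfl

theorem cr_one : cr 1 1 1 = 1 := by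
  ext1 x
  change cx 1 1 1 x = x
  rw [cx_one]
  rfl

theorem cr_mul (s₁ s₂ s₃ t₁ t₂ t₃ : OR →ₗ[ℝ] OR) :
    cr (s₁ * t₁) (s₂ * t₂) (s₃ * t₃) = cr s₁ s₂ s₃ * cr t₁ t₂ t₃ := by
  ext1 x
  change cx (s₁ * t₁) (s₂ * t₂) (s₃ * t₃) x = cx s₁ s₂ s₃ (cx t₁ t₂ t₃ x)
  rw [cx_mul]
  rfl

theorem cr_tz (s₁ s₂ s₃ : OR →ₗ[ℝ] OR) (z₁ z₂ z₃ : ℂ) :
    cr s₁ s₂ s₃ * tz z₁ z₂ z₃ = tz z₁ z₂ z₃ * cr s₁ s₂ s₃ := by
  ext1 x
  rw [mul_app, mul_app, tz_apply, cr_apply, cr_apply, tz_apply]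
  ext1 <;> simp only [map_smul]

theorem IsU.cr {s₁ s₂ s₃ : OR →ₗ[ℝ] OR} (h : IsRel s₁ s₂ s₃) : IsU (H280.Rl.cr s₁ s₂ s₃) :=
  ⟨fun x => cub_cx h x, fun x y => inner_cx h x y⟩

theorem cxo_injective {s t : OR →ₗ[ℝ] OR} (h : cxo s = cxo t) : s = t := by
  ext1 x
  apply upo_injective
  rw [← cxo_upo, ← cxo_upo, h]

theorem cr_inj {s₁ s₂ s₃ t₁ t₂ t₃ : OR →ₗ[ℝ] OR} (h : cr s₁ s₂ s₃ = cr t₁ t₂ t₃) :
    s₁ = t₁ ∧ s₂ = t₂ ∧ s₃ = t₃ := by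
  refine ⟨cxo_injective ?_, cxo_injective ?_, cxo_injective ?_⟩
  · ext1 x
    exact congrArg (fun f : RV => (f (⟨0, 0, 0, x, 0, 0⟩ : VC)).x1) h
  · ext1 x
    exact congrArg (fun f : RV => (f (⟨0, 0, 0, 0, x, 0⟩ : VC)).x2) h
  · ext1 x
    exact congrArg (fun f : RV => (f (⟨0, 0, 0, 0, 0, x⟩ : VC)).x3) h

/-- The exponential of an imaginary number. -/
noncomputable def ei (θ : ℝ) : ℂ := Complex.exp (θ * Complex.I)

theorem conj_ei (θ : ℝ) : conj (ei θ) * ei θ = 1 := by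
  rw [ei, ← Complex.exp_conj, ← Complex.exp_add]
  simp

theorem ei_add (s t : ℝ) : ei (s + t) = ei s * ei t := by
  rw [ei, ei, ei, ← Complex.exp_add]
  congr 1
  push_cast
  ring

theorem ei_zero : ei 0 = 1 := by simp [ei]

theorem continuous_ei : Continuous ei := by
  unfold ei
  fun_prop

/-- The one-parameter group in the torus. -/
noncomputable def tt (α β : ℝ) (t : ℝ) : RV := tz (ei (t * α)) (ei (t * β)) (ei (t * (-α - β)))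

theorem tt_add (α β s t : ℝ) : tt α β (s + t) = tt α β s * tt α β t := by
  rw [tt, tt, tt, ← tz_mul, ← ei_add, ← ei_add, ← ei_add, add_mul, add_mul, add_mul]

theorem tt_zero (α β : ℝ) : tt α β 0 = 1 := by
  rw [tt, zero_mul, zero_mul, zero_mul, ei_zero, tz_one]

theorem tt_prod (α β t : ℝ) : ei (t * α) * ei (t * β) * ei (t * (-α - β)) = 1 := by
  rw [← ei_add, ← ei_add, ← ei_zero]
  congr 1
  ring

theorem IsU.tt (α β t : ℝ) : IsU (H280.Rl.tt α β t) :=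
  IsU.tz (conj_ei _) (conj_ei _) (conj_ei _) (tt_prod α β t)

/-- The dependence of the torus on its parameters. -/
noncomputable def tl (x : VC) : (Fin 6 → ℂ) →ₗ[ℂ] VC where
  toFun w := ⟨w 0 * x.d1, w 1 * x.d2, w 2 * x.d3, w 3 • x.x1, w 4 • x.x2, w 5 • x.x3⟩
  map_add' w w' := by
    ext1 <;> simp only [d1_add, d2_add, d3_add, x1_add, x2_add, x3_add, Pi.add_apply, add_mul,
      add_smul]
  map_smul' t w := by
    ext1 <;> simp only [d1_smul, d2_smul, d3_smul, x1_smul, x2_smul, x3_smul, RingHom.id_apply,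
      Pi.smul_apply, smul_eq_mul, mul_assoc, mul_smul]

theorem continuous_tz (x : VC) : Continuous fun z : ℂ × ℂ × ℂ => tz z.1 z.2.1 z.2.2 x := by
  have h : Continuous fun z : ℂ × ℂ × ℂ => (![z.1 ^ 2, z.2.1 ^ 2, z.2.2 ^ 2, z.2.1 * z.2.2,
      z.2.2 * z.1, z.1 * z.2.1] : Fin 6 → ℂ) := by
    refine continuous_pi fun i => ?_
    fin_cases i <;> simp <;> fun_prop
  have e : (fun z : ℂ × ℂ × ℂ => tz z.1 z.2.1 z.2.2 x) = fun z : ℂ × ℂ × ℂ =>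
      tl x ![z.1 ^ 2, z.2.1 ^ 2, z.2.2 ^ 2, z.2.1 * z.2.2, z.2.2 * z.1, z.1 * z.2.1] := by
    funext z
    rw [tz_apply]
    rfl
  rw [e]
  exact (LinearMap.continuous_of_finiteDimensional (tl x)).comp h

theorem continuous_tt (α β : ℝ) : Continuous (tt α β) := by
  refine continuous_of_apply fun x => ?_
  have h1 : ∀ θ : ℝ, Continuous fun t : ℝ => ei (t * θ) := fun θ =>
    continuous_ei.comp (continuous_id.mul continuous_const)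
  have h : Continuous fun t : ℝ => (ei (t * α), ei (t * β), ei (t * (-α - β))) :=
    (h1 α).prodMk ((h1 β).prodMk (h1 _))
  have e : (fun t : ℝ => tt α β t x) = (fun z : ℂ × ℂ × ℂ => tz z.1 z.2.1 z.2.2 x) ∘
      fun t : ℝ => (ei (t * α), ei (t * β), ei (t * (-α - β))) := by
    funext t
    rw [tt]
    rfl
  rw [e]
  exact (continuous_tz x).comp h

/-- The torus is connected. -/
theorem Con.tt {J : RV} (α β : ℝ) (h : ∀ t, H280.Rl.tt α β t * J = J * H280.Rl.tt α β t)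
    (t : ℝ) : Con J (H280.Rl.tt α β t) :=
  Con.of_one (tt_zero α β) (tt_add α β) (continuous_tt α β) (fun t => (IsU.tt α β t).mem (h t)) t

theorem tz_e1 (z₁ z₂ z₃ : ℂ) : tz z₁ z₂ z₃ e1 = z₁ ^ 2 • e1 := by
  rw [tz_apply]
  ext1 <;> simp [e1]

theorem tz_e2 (z₁ z₂ z₃ : ℂ) : tz z₁ z₂ z₃ e2 = z₂ ^ 2 • e2 := by
  rw [tz_apply]
  ext1 <;> simp [e2]

theorem tz_e3 (z₁ z₂ z₃ : ℂ) : tz z₁ z₂ z₃ e3 = z₃ ^ 2 • e3 := by
  rw [tz_apply]
  ext1 <;> simp [e3]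

theorem cub_e : cub (e1 + e2 + e3 : VC) = 1 := by
  simp [cub, e1, e2, e3, bil]

theorem cub_smul_e (a b c : ℂ) : cub (a • e1 + b • e2 + c • e3 : VC) = a * b * c := by
  simp [cub, e1, e2, e3, bil]

theorem inner_e1 : inner ℂ (e1 : VC) e1 = 1 := by
  rw [inner_eq]; simp [hs, oh, qh, e1]

theorem inner_e2 : inner ℂ (e2 : VC) e2 = 1 := by
  rw [inner_eq]; simp [hs, oh, qh, e2]

theorem inner_e3 : inner ℂ (e3 : VC) e3 = 1 := by
  rw [inner_eq]; simp [hs, oh, qh, e3]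

theorem IsU.eig {g : RV} (hg : IsU g) {x : VC} (hx : inner ℂ x x = 1) {l : ℂ}
    (h : g x = l • x) : conj l * l = 1 := by
  have h1 := hg.2 x x
  rw [h, inner_smul_left, inner_smul_right, hx, mul_one] at h1
  exact h1

theorem exists_ei {l : ℂ} (h : conj l * l = 1) : ∃ α : ℝ, l = ei α * ei α := by
  have h1 : ‖l‖ = 1 := by
    have h2 : (‖l‖ : ℂ) ^ 2 = 1 := by rw [← Complex.conj_mul', h]
    have h3 : ‖l‖ ^ 2 = 1 := by exact_mod_cast h2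
    nlinarith [norm_nonneg l]
  refine ⟨Complex.arg l / 2, ?_⟩
  rw [← ei_add, ei]
  conv_lhs => rw [← Complex.norm_mul_exp_arg_mul_I l, h1]
  rw [Complex.ofReal_one, one_mul]
  congr 2
  push_cast
  ring

/-- **The elements with three eigenvectors.** -/
theorem exists_tt {g : RV} (hg : IsU g) {l₁ l₂ l₃ : ℂ} (h1 : g e1 = l₁ • e1)
    (h2 : g e2 = l₂ • e2) (h3 : g e3 = l₃ • e3) : ∃ α β : ℝ, l₁ = ei α * ei α ∧
      l₂ = ei β * ei β ∧ l₃ = ei (-α - β) * ei (-α - β) ∧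
      ∃ s₁ s₂ s₃ : OR →ₗ[ℝ] OR, IsRel s₁ s₂ s₃ ∧ g = tt α β 1 * cr s₁ s₂ s₃ := by
  obtain ⟨α, hα⟩ := exists_ei (hg.eig inner_e1 h1)
  obtain ⟨β, hβ⟩ := exists_ei (hg.eig inner_e2 h2)
  have h4 : l₁ * l₂ * l₃ = 1 := by
    have := hg.1 (e1 + e2 + e3)
    rw [map_add, map_add, h1, h2, h3, cub_smul_e, cub_e] at this
    exact this
  have h5 : l₃ = ei (-α - β) * ei (-α - β) := by
    have h6 : l₁ * l₂ * (ei (-α - β) * ei (-α - β)) = 1 := by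
      rw [hα, hβ, ← ei_add, ← ei_add, ← ei_add, ← ei_add, ← ei_add, ← ei_zero]
      congr 1
      ring
    have h7 : l₁ * l₂ ≠ 0 := left_ne_zero_of_mul_eq_one h4
    exact mul_left_cancel₀ h7 (by rw [h4, h6])
  refine ⟨α, β, hα, hβ, h5, ?_⟩
  have hk : IsU (tt α β (-1) * g) := (IsU.tt α β (-1)).mul hg
  have hinv : ∀ θ : ℝ, ei (-1 * θ) * ei θ = 1 := fun θ => by
    rw [← ei_add, ← ei_zero]
    congr 1
    ring
  have hinv' : ∀ θ : ℝ, ei (-1 * θ) ^ 2 * (ei θ * ei θ) = 1 := fun θ => by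
    linear_combination (ei (-1 * θ) * ei θ + 1) * hinv θ
  have f1 : (tt α β (-1) * g) e1 = e1 := by
    rw [mul_app, h1, map_smul, tt, tz_e1, smul_smul, hα, mul_comm, hinv', one_smul]
  have f2 : (tt α β (-1) * g) e2 = e2 := by
    rw [mul_app, h2, map_smul, tt, tz_e2, smul_smul, hβ, mul_comm, hinv', one_smul]
  have f3 : (tt α β (-1) * g) e3 = e3 := by
    rw [mul_app, h3, map_smul, tt, tz_e3, smul_smul, h5, mul_comm, hinv', one_smul]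
  obtain ⟨s₁, s₂, s₃, hs, he⟩ := exists_cx (k := (tt α β (-1) * g).toLinearMap) hk.1 hk.2 f1 f2 f3
  refine ⟨s₁, s₂, s₃, hs, ?_⟩
  have e : tt α β (-1) * g = cr s₁ s₂ s₃ := by
    ext1 x
    exact congrArg (fun f : VC →ₗ[ℂ] VC => f x) he
  rw [← e, ← mul_assoc, ← tt_add, add_neg_cancel, tt_zero, one_mul]

end Vale.Agent.P011.H280.Rl
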