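import Vale.Agent.P011.H280.Rl.Tra
import Vale.Agent.P011.H505.Rl.ThmF
import Vale.Agent.P011.E6H.Hyp

/-!
The connectedness at the embeddings that are not real.
-/

open NumberField

namespace Vale.Agent.P011.H280.Rl

open Vale.Agent.P011.E6 Vale.Agent.P011.E6H Vale.Agent.P011.H261.Rl

/-- **The group at an embedding that is not real is generated by its one-parameter groups.** -/
theorem conn_nonreal {k E : Type} [Field k] [NumberField k] [Field E] [NumberField E]
    [Algebra k E] {ρ σ : E ≃ₐ[k] E} {lam : Eˣ} {g : Fin 3 → Eˣ} {a b c : kˣ}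
    (hg : IsForm ρ σ lam g) (φ : E →+* ℂ) (hφ : ¬ RealE φ) : Conn ρ σ lam g a b c φ :=
  conn_of (fun _ _ hJJ hJ hf => H505.Rl.thmF hJJ hJ hf) hg.σg hφ

end Vale.Agent.P011.H280.Rl
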