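import Vale.Agent.P011.H44.Rl.EigA
import Vale.Agent.P011.H525.Lie.Form
import Vale.Agent.P011.H184.Pol

/-!
The maps that are products of exponentials of elements of the Lie algebra, in the standard model.
-/

open NormedSpace Filter Topology

namespace Vale.Agent.P011.H280.Rl

open Vale.Agent.P011.MPQ Vale.Agent.P011.D4 Vale.Agent.P011.D4.Oct
open Vale.Agent.P011.E6
open Vale.Agent.P011.E6.Alb Vale.Agent.P011.H261.Rl Vale.Agent.P011.H44.Rl
open scoped ComplexConjugate

/-- The operators on the standard model. -/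
abbrev RV : Type := R (-1 : ℂˣ) (-1 : ℂˣ) (-1 : ℂˣ)

/-- The group attached to a form. -/
def GJ (J : RV) : Set RV :=
  {f | (∀ x, cub (f x) = cub x) ∧ ∀ x y, inner ℂ (J (f x)) (f y) = inner ℂ (J x) y}

/-- Its Lie algebra. -/
def LJ (J : RV) : Set RV :=
  {X | (∀ x, tf (X x) (adj x) = 0) ∧ ∀ x y, inner ℂ (J (X x)) y + inner ℂ (J x) (X y) = 0}

/-- The elements of the compact group. -/
def IsU (g : RV) : Prop :=
  (∀ x, cub (g x) = cub x) ∧ ∀ x y, inner ℂ (g x) (g y) = inner ℂ x y

/-- The map is contained in every monoid that contains the exponentials. -/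
def Con (J f : RV) : Prop :=
  ∀ L : Set RV, (1 : RV) ∈ L → (∀ x ∈ L, ∀ y ∈ L, x * y ∈ L) → (∀ X ∈ LJ J, exp X ∈ L) → f ∈ L

theorem Con.one (J : RV) : Con J 1 := fun _ h _ _ => h

theorem Con.mul {J f g : RV} (hf : Con J f) (hg : Con J g) : Con J (f * g) :=
  fun L h1 h2 h3 => h2 _ (hf L h1 h2 h3) _ (hg L h1 h2 h3)

theorem Con.pow {J f : RV} (hf : Con J f) (n : ℕ) : Con J (f ^ n) := by
  induction n with
  | zero => rw [pow_zero]; exact Con.one J
  | succ n ih => rw [pow_succ]; exact ih.mul hf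

theorem Con.exp {J X : RV} (h : X ∈ LJ J) : Con J (NormedSpace.exp X) := fun _ _ _ h3 => h3 X h

theorem mul_app (f g : RV) (x : VC) : (f * g) x = f (g x) := rfl

theorem one_app (x : VC) : (1 : RV) x = x := rfl

theorem exp_conjg (g g' X : RV) (h : g * g' = 1) (h' : g' * g = 1) :
    NormedSpace.exp (g * X * g') = g * NormedSpace.exp X * g' := by
  let _ : NormedAlgebra ℚ RV := NormedAlgebra.restrictScalars ℚ ℂ _
  have := exp_units_conj (⟨g, g', h, h'⟩ : RVˣ) X
  simpa using this

theorem tf_adj_map {f : RV} (h : ∀ x, cub (f x) = cub x) (x y : VC) :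
    tf (f y) (adj (f x)) = tf y (adj x) := by
  rw [tf_comm, tf_comm y]
  exact H44.Rl.tf_adj_of_cub (g := f) (fun x y => map_add f x y) (fun s x => map_smul f s x) h x y

theorem Con.conjg {J f g g' : RV} (hf : Con J f) (hg : IsU g) (h : g * g' = 1)
    (h' : g' * g = 1) : Con (g * J * g') (g * f * g') := by
  have hg' : ∀ x y, inner ℂ (g' x) y = inner ℂ x (g y) := by
    intro x y
    rw [← hg.2, ← mul_app, h, one_app]
  have hg'' : ∀ x y, inner ℂ x (g' y) = inner ℂ (g x) y := by
    intro x y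
    rw [← hg.2, ← mul_app, h, one_app]
  have hgg : ∀ x, g' (g x) = x := fun x => by rw [← mul_app, h', one_app]
  have hgg' : ∀ x, g (g' x) = x := fun x => by rw [← mul_app, h, one_app]
  intro L h1 h2 h3
  refine hf {x | g * x * g' ∈ L} ?_ ?_ ?_
  · change g * 1 * g' ∈ L
    rw [mul_one, h]
    exact h1
  · intro x hx y hy
    change g * (x * y) * g' ∈ L
    have e : g * (x * y) * g' = (g * x * g') * (g * y * g') := by
      calc g * (x * y) * g' = g * x * 1 * y * g' := by simp only [mul_assoc, mul_one]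
        _ = g * x * (g' * g) * y * g' := by rw [h']
        _ = _ := by simp only [mul_assoc]
    rw [e]
    exact h2 _ hx _ hy
  · intro X hX
    change g * NormedSpace.exp X * g' ∈ L
    rw [← exp_conjg g g' X h h']
    refine h3 _ ⟨fun x => ?_, fun x y => ?_⟩
    · have h4 := tf_adj_map hg.1 (g' x) (X (g' x))
      rw [hgg'] at h4
      change tf (g (X (g' x))) (adj x) = 0
      rw [h4]
      exact hX.1 _
    · have h4 := hX.2 (g' x) (g' y)
      change inner ℂ (g (J (g' (g (X (g' x)))))) y + inner ℂ (g (J (g' x))) (g (X (g' y))) = 0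
      rw [hgg, hg.2, ← h4, hg'']

/-- The trilinear form. -/
theorem tri_cub : H525.Lie.Tri (fun x y z : VC => tf (cross x y) z) := by
  refine ⟨fun y z => ⟨fun x x' => ?_, fun r x => ?_⟩, fun x z => ⟨fun y y' => ?_, fun r y => ?_⟩,
    fun x y => ⟨fun z z' => ?_, fun r z => ?_⟩⟩
  · change tf (cross (x + x') y) z = _
    rw [cross_add_left, tf_add_left]
  · change tf (cross ((r : ℂ) • x) y) z = _
    rw [cross_smul_left, tf_smul_left]
  · change tf (cross x (y + y')) z = _
    rw [cross_add_right, tf_add_left]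
  · change tf (cross x ((r : ℂ) • y)) z = _
    rw [cross_smul_right, tf_smul_left]
  · change tf (cross x y) (z + z') = _
    rw [tf_add_right]
  · change tf (cross x y) ((r : ℂ) • z) = _
    rw [tf_smul_right]

theorem bil_herm (J : RV) : H525.Lie.Bil (fun x y : VC => inner ℂ (J x) y) := by
  refine ⟨fun y => ⟨fun x x' => ?_, fun r x => ?_⟩, fun x => ⟨fun y y' => ?_, fun r y => ?_⟩⟩
  · change inner ℂ (J (x + x')) y = _
    rw [map_add, inner_add_left]
  · change inner ℂ (J ((r : ℂ) • x)) y = _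
    rw [map_smul, inner_smul_left, Complex.conj_ofReal]
  · change inner ℂ (J x) (y + y') = _
    rw [inner_add_right]
  · change inner ℂ (J x) ((r : ℂ) • y) = _
    rw [inner_smul_right]

theorem cross_map {f : RV} (h : ∀ x, cub (f x) = cub x) (x y z : VC) :
    tf (cross (f x) (f y)) (f z) = tf (cross x y) z := by
  have h1 := tf_adj_map h (x + y) z
  have h2 := tf_adj_map h x z
  have h3 := tf_adj_map h y z
  rw [map_add, adj_add, adj_add, tf_add_right, tf_add_right, tf_add_right, tf_add_right, h2, h3]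
    at h1
  rw [tf_comm, tf_comm _ z]
  linear_combination h1

/-- An element of the group close to one. -/
theorem Con.of_near {J g : RV} (hg : g ∈ GJ J) (h : ‖g - 1‖ ≤ 1 / 16) : Con J g := by
  obtain ⟨X, -, hX, h1, h2, -⟩ := H525.Lie.exists_log_form h
  rw [← hX]
  refine Con.exp ⟨fun x => ?_, fun x y => ?_⟩
  · have h3 := h1 _ tri_cub (fun x y z => cross_map hg.1 x y z) x x x
    change tf (cross (X x) x) x + tf (cross x (X x)) x + tf (cross x x) (X x) = 0 at h3
    rw [tf_cross_comm x (X x) x, tf_cross (X x) x x, Alb.cross_self, tf_smul_left, tf_comm (adj x),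
      tf_smul_right] at h3
    have h4 : (6 : ℂ) * tf (X x) (adj x) = 0 := by linear_combination h3
    exact (mul_eq_zero.1 h4).resolve_left (by norm_num)
  · exact h2 _ (bil_herm J) hg.2 x y

theorem continuous_of_apply {X : Type*} [TopologicalSpace X] {γ : X → RV}
    (h : ∀ v : VC, Continuous fun t => γ t v) : Continuous γ :=
  continuous_clm_apply.2 h

/-- The one-parameter groups. -/
theorem Con.of_one {J : RV} {γ : ℝ → RV} (h0 : γ 0 = 1) (hadd : ∀ s t, γ (s + t) = γ s * γ t)
    (hc : Continuous γ) (hG : ∀ t, γ t ∈ GJ J) (t : ℝ) : Con J (γ t) := by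
  have h1 : Tendsto (fun n : ℕ => γ (t / (n + 1 : ℕ))) atTop (𝓝 1) := by
    rw [← h0]
    refine (hc.tendsto 0).comp ?_
    have := (tendsto_const_div_atTop_nhds_zero_nat t).comp (tendsto_add_atTop_nat 1)
    exact this
  have h2 := (Metric.tendsto_nhds.1 h1) (1 / 16) (by norm_num)
  obtain ⟨n, hn⟩ := h2.exists
  have hn' : ‖γ (t / (n + 1 : ℕ)) - 1‖ ≤ 1 / 16 := by
    rw [dist_eq_norm] at hn
    exact hn.le
  have h3 := (Con.of_near (hG _) hn').pow (n + 1)
  have key : ∀ (s : ℝ) (m : ℕ), γ s ^ m = γ (m * s) := by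
    intro s m
    induction m with
    | zero => rw [pow_zero, Nat.cast_zero, zero_mul, h0]
    | succ m ih => rw [pow_succ, ih, ← hadd, Nat.cast_succ, add_mul, one_mul]
  rw [key] at h3
  have e : ((n + 1 : ℕ) : ℝ) * (t / (n + 1 : ℕ)) = t := by
    have : ((n + 1 : ℕ) : ℝ) ≠ 0 := by positivity
    field_simp
  rwa [e] at h3

end Vale.Agent.P011.H280.Rl
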