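import Vale.Agent.P011.H280.Rl.Cpx
import Vale.Agent.P011.H327.Star.Lim
import Vale.Agent.P011.H974.Rl.Inert
import Vale.Agent.P011.H261.Rl.Top

/-!
The transport of the connectedness from the standard model to the embeddings that are not real.
-/

open NormedSpace Filter Topology NumberField

namespace Vale.Agent.P011.H280.Rl

open Vale.Agent.P011.MPQ Vale.Agent.P011.D4 Vale.Agent.P011.D4.Oct
open Vale.Agent.P011.E6
open Vale.Agent.P011.E6.Alb Vale.Agent.P011.H261.Rl Vale.Agent.P011.H44.Rl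
open scoped ComplexConjugate

section tr

variable {a b c : ℂˣ} (S : Alb a b c ≃ₗ[ℂ] VC)

/-- The transport of an operator. -/
noncomputable def tr : RV →+* R a b c where
  toFun x := (LinearMap.toContinuousLinearMap S.symm.toLinearMap).comp
    (x.comp (LinearMap.toContinuousLinearMap S.toLinearMap))
  map_one' := by
    ext1 x
    exact S.symm_apply_apply x
  map_mul' x y := by
    ext1 v
    change S.symm (x (y (S v))) = S.symm (x (S (S.symm (y (S v)))))
    rw [S.apply_symm_apply]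
  map_zero' := by
    ext1 v
    exact map_zero S.symm
  map_add' x y := by
    ext1 v
    exact map_add S.symm (x (S v)) (y (S v))

theorem tr_apply (x : RV) (v : Alb a b c) : tr S x v = S.symm (x (S v)) := rfl

theorem continuous_tr : Continuous (tr S) := by
  change Continuous fun x : RV => (LinearMap.toContinuousLinearMap S.symm.toLinearMap).comp
    (x.comp (LinearMap.toContinuousLinearMap S.toLinearMap))
  exact continuous_const.clm_comp (continuous_id.clm_comp continuous_const)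

theorem tr_exp (X : RV) : tr S (exp X) = exp (tr S X) := by
  let _ : NormedAlgebra ℚ RV := NormedAlgebra.restrictScalars ℚ ℂ _
  let _ : NormedAlgebra ℚ (R a b c) := NormedAlgebra.restrictScalars ℚ ℂ _
  exact map_exp (tr S) (continuous_tr S) X

/-- The transport in the other direction. -/
noncomputable def rt (f : R a b c) : RV := (LinearMap.toContinuousLinearMap S.toLinearMap).comp
  (f.comp (LinearMap.toContinuousLinearMap S.symm.toLinearMap))

theorem rt_apply (f : R a b c) (v : VC) : rt S f v = S (f (S.symm v)) := rfl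

theorem tr_rt (f : R a b c) : tr S (rt S f) = f := by
  ext1 v
  rw [tr_apply, rt_apply, S.symm_apply_apply, S.symm_apply_apply]

variable {S}

theorem tf_tr (hS : ∀ x, cub (S x) = cub x) (x y : Alb a b c) :
    tf (S y) (adj (S x)) = tf y (adj x) := by
  have h := E6.tf_adj_of_cub (φ := S.toLinearMap) (μ := 1)
    (fun x => by rw [one_mul]; exact hS x) x y
  rw [one_mul] at h
  rw [tf_comm, tf_comm y]
  exact h

theorem cub_rt (hS : ∀ x, cub (S x) = cub x) {f : R a b c} (hf : f ∈ GN a b c) (x : VC) :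
    cub (rt S f x) = cub x := by
  rw [rt_apply, hS, hf, ← hS, S.apply_symm_apply]

theorem tr_LN (hS : ∀ x, cub (S x) = cub x) {X : RV} (hX : ∀ x, tf (X x) (adj x) = 0) :
    tr S X ∈ LN a b c := by
  intro x
  have h := hX (S x)
  rw [tr_apply, ← tf_tr hS, S.apply_symm_apply]
  exact h

/-- The hermitian case. -/
theorem mem_inert (hF : ∀ J f : RV, J * J = 1 → IsU J → f ∈ GJ J → Con J f)
    {g : Fin 3 → ℂˣ} {J : RV} {r : ℝ} (hr : 0 < r) (hS : ∀ x, cub (S x) = cub x)
    (hh : ∀ x y, inner ℂ (J (S y)) (S x) = r * hC g x y) (hJJ : J * J = 1) (hJ : IsU J)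
    {L : Set (R a b c)} (h1 : (1 : R a b c) ∈ L) (hm : ∀ x ∈ L, ∀ y ∈ L, x * y ∈ L)
    (hL : ∀ X : R a b c, X ∈ LN a b c → X ∈ LH g a b c → exp X ∈ L) {f : R a b c}
    (hf : f ∈ GN a b c) (hf' : f ∈ UH g a b c) : f ∈ L := by
  have hG : rt S f ∈ GJ J := by
    refine ⟨cub_rt hS hf, fun x y => ?_⟩
    rw [rt_apply, rt_apply, hh, hf', ← hh, S.apply_symm_apply, S.apply_symm_apply]
  have key := hF J (rt S f) hJJ hJ hG {x | tr S x ∈ L} ?_ ?_ ?_
  · change tr S (rt S f) ∈ L at key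
    rwa [tr_rt] at key
  · change tr S 1 ∈ L
    rw [map_one]
    exact h1
  · intro x hx y hy
    change tr S (x * y) ∈ L
    rw [map_mul]
    exact hm _ hx _ hy
  · intro X hX
    change tr S (exp X) ∈ L
    rw [tr_exp]
    refine hL _ (tr_LN hS hX.1) fun x y => ?_
    have h2 := hX.2 (S y) (S x)
    have h3 : (r : ℂ) ≠ 0 := by exact_mod_cast hr.ne'
    apply mul_left_cancel₀ h3
    rw [mul_add, mul_zero, ← hh, ← hh, tr_apply, tr_apply, S.apply_symm_apply,
      S.apply_symm_apply, add_comm]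
    exact h2

/-- The complex case. -/
theorem mem_cpx (hF : ∀ J f : RV, J * J = 1 → IsU J → f ∈ GJ J → Con J f)
    (hS : ∀ x, cub (S x) = cub x)
    {L : Set (R a b c)} (h1 : (1 : R a b c) ∈ L) (hm : ∀ x ∈ L, ∀ y ∈ L, x * y ∈ L)
    (hL : ∀ X : R a b c, X ∈ LN a b c → exp X ∈ L) {f f' : R a b c}
    (hf : f ∈ GN a b c) (hf' : f' ∈ GN a b c) (hff : f * f' = 1) (hff' : f' * f = 1) :
    f ∈ L := by
  have e1 : rt S f * rt S f' = 1 := by
    ext1 v
    rw [mul_app, rt_apply, rt_apply, S.symm_apply_apply]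
    change S ((f * f') (S.symm v)) = v
    rw [hff]
    exact S.apply_symm_apply v
  have e2 : rt S f' * rt S f = 1 := by
    ext1 v
    rw [mul_app, rt_apply, rt_apply, S.symm_apply_apply]
    change S ((f' * f) (S.symm v)) = v
    rw [hff']
    exact S.apply_symm_apply v
  obtain ⟨k, T, hk, hT, hkT⟩ := polar_GN (cub_rt hS hf) (cub_rt hS hf') e1 e2
  have hI : IsU (1 : RV) := ⟨fun _ => rfl, fun _ _ => rfl⟩
  have key := hF 1 k (one_mul 1) hI (hk.2 |> fun h => ⟨hk.1, h⟩) {x | tr S x ∈ L} ?_ ?_ ?_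
  · rw [← tr_rt S f, hkT, map_mul, tr_exp]
    exact hm _ key _ (hL _ (tr_LN hS hT))
  · change tr S 1 ∈ L
    rw [map_one]
    exact h1
  · intro x hx y hy
    change tr S (x * y) ∈ L
    rw [map_mul]
    exact hm _ hx _ hy
  · intro X hX
    change tr S (exp X) ∈ L
    rw [tr_exp]
    exact hL _ (tr_LN hS hX.1)

end tr

section conn

variable {k E : Type} [Field k] [Field E] [CharZero E] [Algebra k E] {ρ σ : E ≃ₐ[k] E}
  {lam : Eˣ} {g : Fin 3 → Eˣ} {a b c : kˣ} {φ : E →+* ℂ}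

/-- **The connectedness at the embeddings that are not real.** -/
theorem conn_of (hF : ∀ J f : RV, J * J = 1 → IsU J → f ∈ GJ J → Con J f)
    (hg : ∀ i, σ (g i) = g i) (hφ : ¬ RealE φ) : Conn ρ σ lam g a b c φ := by
  intro L _ h1 hm hl f hf
  obtain ⟨f, hf, rfl⟩ := hf
  have hL : ∀ X ∈ Ll σ g φ a b c, exp X ∈ L := fun X hX => by
    have := hl X hX 1
    rwa [one_smul] at this
  have hf0 : lc φ f ∈ Lg σ g φ a b c := H327.Star.lc_mem_Lg (⟨f, hf⟩ : G3 ρ σ lam g a b c)
  by_cases hi : InertE σ φ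
  · have hk : ∀ t : k, conj (φ (algebraMap k E t)) = φ (algebraMap k E t) := fun t => by
      rw [← hi, σ.commutes]
    have hw : ∀ i, conj ((gE φ g i : ℂˣ) : ℂ) = (gE φ g i : ℂˣ) := fun i => by
      change conj (φ (g i)) = φ (g i)
      rw [← hi, hg]
    obtain ⟨S, J, r, hr, hS, hh, hJJ, hJ1, hJ2⟩ := H974.Rl.exists_inert
      (a := uw φ (up E a)) (b := uw φ (up E b)) (c := uw φ (up E c)) (hk a) (hk b) (hk c) hw
    exact mem_inert hF hr hS hh hJJ ⟨hJ1, hJ2⟩ h1 hm
      (fun X hX hX' => hL X ⟨hX, fun _ => hX', fun h => absurd h hφ⟩) hf0.1 (hf0.2.1 hi)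
  · obtain ⟨S, hS⟩ := H974.Rl.exists_std (uw φ (up E a)) (uw φ (up E b)) (uw φ (up E c))
    have hf1 : lc φ (⟨f, hf⟩⁻¹ : G3 ρ σ lam g a b c).1 ∈ Lg σ g φ a b c :=
      H327.Star.lc_mem_Lg _
    have e1 : lc φ f * lc φ (⟨f, hf⟩⁻¹ : G3 ρ σ lam g a b c).1 = 1 := by
      have := lc_mul φ (⟨f, hf⟩ : G3 ρ σ lam g a b c) (⟨f, hf⟩⁻¹ : G3 ρ σ lam g a b c)
      rw [mul_inv_cancel, lc_one] at this
      exact this.symm
    have e2 : lc φ (⟨f, hf⟩⁻¹ : G3 ρ σ lam g a b c).1 * lc φ f = 1 := by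
      have := lc_mul φ (⟨f, hf⟩⁻¹ : G3 ρ σ lam g a b c) (⟨f, hf⟩ : G3 ρ σ lam g a b c)
      rw [inv_mul_cancel, lc_one] at this
      exact this.symm
    exact mem_cpx hF hS h1 hm
      (fun X hX => hL X ⟨hX, fun h => absurd h hi, fun h => absurd h hφ⟩) hf0.1 hf1.1 e1 e2

end conn

end Vale.Agent.P011.H280.Rl
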